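import Vale.Agent.P183KG.Defs
import Vale.Agent.P183F.Pre
import Vale.Agent.P183F.Same

/-!
The definitions of the statement agree with those of the proof.
-/

namespace Vale.Agent.P183KG

open Vale.Agent.P183 Vale.Agent.P183PK

/-- The same data. -/
def Chev.old (D : Chev) : P183CH.Chev :=
  @P183CH.Chev.mk D.deg D.rk D.L D.lr D.la D.simple D.H D.b D.φ D.inj D.lie D.μ D.Ed D.Fd D.h_eq
    D.e_pow D.f_pow

theorem IsChev.old {D : Chev} {S : Type} [Group S] (h : IsChev D S) : P183CH.IsChev D.old S := h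

theorem IsClassical.old {d : ℕ} {S : Type} [Group S] (h : IsClassical d S) :
    P183NK.IsClassical d S := h

theorem Listed.old {d c : ℕ} {S : Type} [Group S] (h : Listed d c S) : P183F.Listed d c S := by
  rcases h with h | h | h | ⟨D, h1, h2⟩
  · exact Or.inl h
  · exact Or.inr (Or.inl h)
  · exact Or.inr (Or.inr (Or.inl h.old))
  · exact Or.inr (Or.inr (Or.inr ⟨D.old, h1, h2.old⟩))

theorem KGroup.old {d c : ℕ} {G : Type} [Group G] (h : KGroup d c G) : P183F.KGroup d c G :=
  fun S _ h1 h2 h3 => (h S h1 h2 h3).old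

theorem main :
    ∃ d : ℕ, ∀ c : ℕ, ∃ (L : Type) (_ : Lattice L) (_ : Finite L) (_ : Nonempty L),
      (∀ (G : Type) [Group G] [Finite G] (H : Subgroup G), KGroup d c G →
        IsEmpty (L ≃o {K : Subgroup G // H ≤ K})) ∧
      (∀ A : FiniteAlgebra, (∀ (G : Type) [Group G], PolGroup A G → KGroup d c G) →
        IsEmpty (L ≃o A.Con)) ∧
      ((∀ (S : Type) [Group S] [Finite S], IsSimpleGroup S → (∃ a b : S, a * b ≠ b * a) →
        Listed d c S) → ¬ Representable L) := by
  obtain ⟨d, h⟩ := P183F.main_of_same P183F.sameChar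
  refine ⟨d, fun c => ?_⟩
  obtain ⟨L, i1, i2, i3, h1, h2, h3⟩ := h c
  exact ⟨L, i1, i2, i3, fun G _ _ H hG => h1 G H hG.old, fun A hA => h2 A fun G _ hG => (hA G hG).old,
    fun h => h3 fun S _ _ g1 g2 => (h S g1 g2).old⟩

end Vale.Agent.P183KG
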