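import Mathlib.GroupTheory.SpecificGroups.Alternating
import Mathlib.LinearAlgebra.Matrix.GeneralLinearGroup.Defs
import Mathlib.LinearAlgebra.QuadraticForm.Basic
import Mathlib.LinearAlgebra.SymplecticGroup
import Mathlib.FieldTheory.IsAlgClosed.AlgebraicClosure
import Mathlib.Algebra.Field.ZMod
import Mathlib.Algebra.Lie.Basis.Basic
import Mathlib.Algebra.Lie.Semisimple.Defs
import Mathlib.Data.Complex.Basic

/-!
The list of the classification of finite simple groups.
-/

namespace Vale.Agent.P183KG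

open Matrix Subgroup

/-- `S` is a section of `G`: a homomorphic image of a subgroup of `G`. -/
def IsSection (S G : Type) [Group S] [Group G] : Prop :=
  ∃ (A : Subgroup G) (f : A →* S), Function.Surjective f

/-- `S` is isomorphic to `K / Z(K)`. -/
def ModZ (K S : Type) [Group K] [Group S] : Prop := Nonempty (S ≃* (K ⧸ center K))

/-- `S` is isomorphic to `G' / Z(G')`, where `G'` is the commutator subgroup of `G`. -/
def DerZ (G S : Type) [Group G] [Group S] : Prop := ModZ (commutator G) S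

/-- `S` is an alternating group. -/
def IsAlt (S : Type) [Group S] : Prop := ∃ n : ℕ, Nonempty (S ≃* alternatingGroup (Fin n))

section
variable {F : Type} [Field F]

/-- The general unitary group: the matrices `A` with `(σ A)ᵀ A = 1` (they form a group; `closure`
only names it). -/
def GU (n : ℕ) (σ : F ≃+* F) : Subgroup (GL (Fin n) F) :=
  closure {A | (A.1.map σ)ᵀ * A.1 = 1}

/-- The orthogonal group: the isometries of a quadratic form on `F ^ n` (they form a group;
`closure` only names it). -/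
def GO {n : ℕ} (Q : QuadraticForm F (Fin n → F)) : Subgroup (GL (Fin n) F) :=
  closure {g | ∀ v, Q (g.1 *ᵥ v) = Q v}

/-- The polar form of `Q` is nondegenerate. -/
def Nondeg {n : ℕ} (Q : QuadraticForm F (Fin n → F)) : Prop :=
  ∀ v, (∀ w, QuadraticMap.polar Q v w = 0) → v = 0

end

section
variable (F : Type) [Field F] (n : ℕ) (S : Type) [Group S]

/-- Linear groups. -/
def IsLin : Prop := DerZ (GL (Fin n) F) S

/-- Symplectic groups. -/
def IsSp : Prop := ∃ m : ℕ, n = 2 * m ∧ DerZ (symplecticGroup (Fin m) F) S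

/-- Unitary groups. -/
def IsU : Prop := ∃ σ : F ≃+* F, (∀ x, σ (σ x) = x) ∧ (∃ x, σ x ≠ x) ∧ DerZ (GU n σ) S

/-- Orthogonal groups. -/
def IsO : Prop := ∃ Q : QuadraticForm F (Fin n → F), Nondeg Q ∧ DerZ (GO Q) S

end

/-- `S` is a classical group of dimension `n > d` over a finite field: `G' / Z(G')` for
`G = GL_n(F)`, `Sp_n(F)`, `GU_n(F)` or `O(Q)`, where `Q` is a quadratic form on `F ^ n` whose
polar form is nondegenerate. -/
def IsClassical (d : ℕ) (S : Type) [Group S] : Prop :=
  ∃ (F : Type) (_ : Field F) (_ : Finite F) (n : ℕ), d < n ∧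
    (IsLin F n S ∨ IsSp F n S ∨ IsU F n S ∨ IsO F n S)

/-- The data of a Chevalley group: a complex simple Lie algebra `L` with Chevalley generators
`e_i, f_i, h_i` and a faithful representation `φ` by `deg × deg` matrices, in which the `h_i` are
diagonal integer matrices and the divided powers `e_i ^ m / m!`, `f_i ^ m / m!` are integer
matrices. -/
structure Chev where
  deg : ℕ
  rk : ℕ
  L : Type
  [lr : LieRing L]
  [la : LieAlgebra ℂ L]
  simple : LieAlgebra.IsSimple ℂ L
  H : LieSubalgebra ℂ L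
  b : LieAlgebra.Basis (Fin rk) H
  φ : L →ₗ[ℂ] Matrix (Fin deg) (Fin deg) ℂ
  inj : Function.Injective φ
  lie : ∀ u v, φ ⁅u, v⁆ = φ u * φ v - φ v * φ u
  μ : Fin rk → Fin deg → ℤ
  Ed : Fin rk → ℕ → Matrix (Fin deg) (Fin deg) ℤ
  Fd : Fin rk → ℕ → Matrix (Fin deg) (Fin deg) ℤ
  h_eq : ∀ i, φ (b.h i) = diagonal fun a => (μ i a : ℂ)
  e_pow : ∀ i m, φ (b.e i) ^ m = m.factorial • (Ed i m).map (Int.cast : ℤ → ℂ)
  f_pow : ∀ i m, φ (b.f i) ^ m = m.factorial • (Fd i m).map (Int.cast : ℤ → ℂ)

/-- `O^{p'}(C_G(σ))`: the subgroup generated by the `p`-elements fixed by `σ`. -/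
def fixP {G : Type} [Group G] (p : ℕ) (σ : G →* G) : Subgroup G :=
  closure {g | σ g = g ∧ ∃ m : ℕ, g ^ p ^ m = 1}

namespace Chev

variable (D : Chev) {k : Type} [Field k]

/-- `x_i(t) = exp (t e_i)`. -/
def xe (i : Fin D.rk) (t : k) : Matrix (Fin D.deg) (Fin D.deg) k :=
  ∑ m ∈ Finset.range D.deg, t ^ m • (D.Ed i m).map (Int.cast : ℤ → k)

/-- `y_i(t) = exp (t f_i)`. -/
def yf (i : Fin D.rk) (t : k) : Matrix (Fin D.deg) (Fin D.deg) k :=
  ∑ m ∈ Finset.range D.deg, t ^ m • (D.Fd i m).map (Int.cast : ℤ → k)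

/-- The Chevalley group over `k`. -/
def grp (k : Type) [Field k] : Subgroup (GL (Fin D.deg) k) :=
  closure {g | ∃ i t, g.1 = D.xe i t ∨ g.1 = D.yf i t}

/-- A Steinberg endomorphism in standard form of a group `G` of matrices `ι g`: it permutes the root
subgroups of the simple roots and of their negatives, and `σ ^ e` with `e ≤ 3` is a standard
Frobenius map. -/
def Stein {G : Type} [Group G] (ι : G → Matrix (Fin D.deg) (Fin D.deg) k) (p : ℕ) (σ : G →* G) : Prop :=
  (∃ (π : Equiv.Perm (Fin D.rk)) (a : Fin D.rk → ℕ), ∀ g i t,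
    (ι g = D.xe i t → ι (σ g) = D.xe (π i) (t ^ p ^ a i)) ∧
    (ι g = D.yf i t → ι (σ g) = D.yf (π i) (t ^ p ^ a i))) ∧
  ∃ e f : ℕ, 0 < e ∧ e ≤ 3 ∧ 0 < f ∧ ∀ g, ι (σ^[e] g) = (ι g).map (· ^ p ^ f)

/-- `S ≅ K / Z(K)` with `K = O^{p'}(C_G(σ))` for a Steinberg endomorphism `σ` of `G`. -/
def FixZ {G : Type} [Group G] (ι : G → Matrix (Fin D.deg) (Fin D.deg) k) (p : ℕ) (S : Type) [Group S] :
    Prop :=
  ∃ σ : G →* G, D.Stein ι p σ ∧ ModZ (fixP p σ) S

/-- The same for the Chevalley group `G` over `k`. -/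
def Over (k : Type) [Field k] (p : ℕ) (S : Type) [Group S] : Prop :=
  D.FixZ (fun g : D.grp k => g.1.1) p S

end Chev

/-- `S` is a finite group of Lie type for the datum `D`: `S ≅ K / Z(K)` with `K = O^{p'}(C_G(σ))`,
where `G` is the Chevalley group over the algebraic closure of `𝔽_p` and `σ` is a Steinberg
endomorphism. -/
def IsChev (D : Chev) (S : Type) [Group S] : Prop :=
  ∃ (p : ℕ) (_ : Fact p.Prime), D.Over (AlgebraicClosure (ZMod p)) p S

/-- `S` has order at most `c`, or is alternating, or is classical of dimension `> d`, or is of Lie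
type for a Chevalley datum of degree at most `c`. -/
def Listed (d c : ℕ) (S : Type) [Group S] : Prop :=
  Nat.card S ≤ c ∨ IsAlt S ∨ IsClassical d S ∨ ∃ D : Chev, D.deg ≤ c ∧ IsChev D S

/-- All nonabelian simple sections of `G` are listed. -/
def KGroup (d c : ℕ) (G : Type) [Group G] : Prop :=
  ∀ (S : Type) [Group S], IsSimpleGroup S → (∃ a b : S, a * b ≠ b * a) → IsSection S G →
    Listed d c S

end Vale.Agent.P183KG
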